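import Vale.Agent.P352X.R.IX.A
import Vale.Agent.P352Z.R.Ld

/-!
# P352Z (port of P352X), row IX, part A: invariance of the three point function (helper89)
-/

set_option linter.all false

open MeasureTheory Filter Topology
open scoped SchwartzMap ComplexConjugate ENNReal ContDiff LineDeriv

namespace Vale.Agent.P352X.ZZ.IXH

open Vale.Agent.P352 Vale.Agent.P352.GF Vale.Agent.P352.BW Vale.Agent.P352.H246
open Vale.Agent.P352.H496 Vale.Agent.P352.H755 Vale.Agent.P352.H15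
open UniformSpace (Completion)
open Vale.Agent.P352X.IXH
open Ld

noncomputable section

export Vale.Agent.P352X.ZZ.Ld (t0L t0L_apply)
export Vale.Agent.P352X.IXH (sim_one sim_bas)

/-! ## the chain rule -/

theorem a1_inv {L : Ix → V} (hL : ∀ m, be (L m) = eta m * va m) (I' : I2) (g : Ix → ℂ) :
    ∑ I, a1 I * L2 L I' I * g I.2 = a1 I' * ∑ n, (L I'.2 n : ℂ) * g n := by
  have h : ∑ k, L I'.1 k * (eta k * va k) = eta I'.1 * va I'.1 := by
    rw [← hL, be, GF.mdot]
    exact Finset.sum_congr rfl fun _ _ => by ring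
  rw [a1, ← h, Complex.ofReal_sum, Finset.sum_mul_sum, Fintype.sum_prod_type]
  exact Finset.sum_congr rfl fun _ _ => Finset.sum_congr rfl fun _ _ => by
    simp only [L2, a1]; push_cast; ring

theorem ld_31 (x : V) (F : S3) :
    Ev.ld ((x, 0, 0) : V × V × V) F = ∑ n, (x n : ℂ) • p31 n F := by
  refine Eq.trans ?_ (Ev.ld_sum _ x (fun n => ((bas n 1, 0, 0) : V × V × V)) F)
  congr 2
  refine Prod.ext ?_ (Prod.ext ?_ ?_) <;> simp [Prod.fst_sum, Prod.snd_sum, Ap.sum_bas]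

theorem ld_33 (x : V) (F : S3) :
    Ev.ld ((0, 0, x) : V × V × V) F = ∑ n, (x n : ℂ) • p33 n F := by
  refine Eq.trans ?_ (Ev.ld_sum _ x (fun n => ((0, 0, bas n 1) : V × V × V)) F)
  congr 2
  refine Prod.ext ?_ (Prod.ext ?_ ?_) <;> simp [Prod.fst_sum, Prod.snd_sum, Ap.sum_bas]

variable {D : Type*} [NormedAddCommGroup D] [InnerProductSpace ℂ D] (c : Ctx D)

theorem t0_inv [Fact c.tp] {L : Ix → V} {a : V} (hL : IsLor L) (ha : ∀ m, be (L m) = eta m * va m)
    {F G : S3} (h : ∀ x y z, G (x, y, z) = F (sim 1 L a x, sim 1 L a y, sim 1 L a z)) :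
    c.t0 F = c.t0 G := by
  set e := (conf_lor hL).cle
  set S := pb (e.prodCongr (e.prodCongr e)) (a, a, a)
  have hS : ∀ (H : S3) x y z, S H (x, y, z) = H (sim 1 L a x, sim 1 L a y, sim 1 L a z) :=
    fun H x y z => by
      rw [pb_apply, HM.sim_at 1 L a x, HM.sim_at 1 L a y, HM.sim_at 1 L a z]
      rfl
  obtain rfl : G = S F := SchwartzMap.ext fun z => (h z.1 z.2.1 z.2.2).trans (hS F _ _ _).symm
  have e0 : ∀ n, e (bas n 1) = L n := sim_bas L
  have d1 : ∀ n H, p31 n (S H) = S (∑ m, (L n m : ℂ) • p31 m H) := fun n H => by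
    rw [← ld_31, ← e0]
    exact (ld_pb _ _ _ H).trans (by simp [S])
  have d3 : ∀ n H, p33 n (S H) = S (∑ m, (L n m : ℂ) • p33 m H) := fun n H => by
    rw [← ld_33, ← e0]
    exact (ld_pb _ _ _ H).trans (by simp [S])
  have k : ∀ I J K : I2, c.t I J K (p31 I.2 (p33 K.2 F)) = ∑ Q : I2 × I2 × I2,
      L2 L Q.1 I * L2 L Q.2.1 J * L2 L Q.2.2 K * c.t Q.1 Q.2.1 Q.2.2 (S (p31 I.2 (p33 K.2 F))) :=
    fun I J K => by
      rw [c.hTP.cov 1 L a I J K _ _ one_pos hL (hS _) (Or.inl rfl)]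
      simp only [Fintype.sum_prod_type (α₁ := I2)]
  have s : ∀ f : I2 → I2 → I2 → I2 × I2 × I2 → ℂ,
      ∑ I, ∑ J, ∑ K, ∑ Q, f I J K Q = ∑ Q, ∑ I, ∑ J, ∑ K, f I J K Q := fun f =>
    (Finset.sum_congr rfl fun _ _ => (Finset.sum_congr rfl fun _ _ => Finset.sum_comm).trans
      Finset.sum_comm).trans Finset.sum_comm
  rw [Ld.t0_eq, Ld.t0_eq]
  simp only [k, Finset.mul_sum]
  rw [s]
  simp only [Fintype.sum_prod_type (α₁ := I2)]
  refine Finset.sum_congr rfl fun I' _ => Finset.sum_congr rfl fun J' _ =>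
    Finset.sum_congr rfl fun K' _ => ?_
  set τ : Ix → Ix → ℂ := fun n q => c.t I' J' K' (S (p31 n (p33 q F))) with hτ
  calc _ = ∑ I, a1 I * L2 L I' I * ((∑ J, L2 L J' J * ua J) * ∑ K, a1 K * L2 L K' K * τ I.2 K.2) := by
        simp only [Finset.sum_mul_sum]
        simp only [Finset.mul_sum]
        exact Finset.sum_congr rfl fun _ _ => Finset.sum_congr rfl fun J _ =>
          Finset.sum_congr rfl fun _ _ => by rw [show a2 J = ua J from rfl]; ring
    _ = a1 I' * ∑ n, (L I'.2 n : ℂ) * (a2 J' * (a1 K' * ∑ q, (L K'.2 q : ℂ) * τ n q)) := by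
        simp only [ua_inv ha, fun n => a1_inv ha K' (τ n)]
        exact a1_inv ha I' fun n => a2 J' * (a1 K' * ∑ q, (L K'.2 q : ℂ) * τ n q)
    _ = _ := by
        simp only [d3, d1, map_sum, map_smul, smul_eq_mul, Finset.mul_sum, hτ]
        rw [Finset.sum_comm]
        exact Finset.sum_congr rfl fun _ _ => Finset.sum_congr rfl fun _ _ => by ring

/-! ## infinitesimal invariance -/

theorem t0_tra [Fact c.tp] {F : V × V × V → ℂ} (hF : Dc F) (y : V) :
    c.t0 (sch fun z => fderiv ℝ F z (y, y, y)) = 0 := by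
  have h1 : ∀ t : ℝ, Dc fun x => F ((1 : _ →L[ℝ] _) x + t • (y, y, y)) := fun t =>
    Api4.dc_add_const hF _
  have := der0 (t0L c) (g := fun _ => 1) (a := fun t => t • (y, y, y)) (g' := 0) (a' := (y, y, y))
    (hasDerivAt_const _ _) (by simpa using (hasDerivAt_id (0 : ℝ)).smul_const (y, y, y)) rfl
    (zero_smul _ _) hF h1 fun t => t0_inv c (a := t • y) H496.isLor_one be_bas fun x y z => by
      rw [Api4.sch_apply (h1 t), Api4.sch_apply hF, sim_one, sim_one, sim_one]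
      rfl
  simp only [ContinuousLinearMap.zero_apply, zero_add] at this
  exact this

variable {c} in
theorem t0_rot [Fact c.tp] (hg : GRP c) {F : V × V × V → ℂ} (hF : Dc F) (i : Fin 2) :
    c.t0 (sch fun z => fderiv ℝ F z (mL i z.1, mL i z.2.1, mL i z.2.2)) = 0 := by
  set g : ℝ → V × V × V →L[ℝ] V × V × V :=
    fun t => 1 + t • tr3 (mL i) + t ^ 2 • tr3 (((1 / 2 : ℝ) • beL).smulRight va) with hg'
  have e : ∀ t z, g t z + 0 = (gap (t • e2 i) z.1, gap (t • e2 i) z.2.1, gap (t • e2 i) z.2.2) :=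
    fun t z => by simp only [add_zero, gap_eq]; rfl
  have h1 : ∀ t : ℝ, Dc fun x => F (g t x + 0) := fun t => by
    have := Api4.dc_comp_cle hF (ContinuousLinearEquiv.equivOfInverse (tr3 (gapL (t • e2 i)))
      (tr3 (gapL (-(t • e2 i)))) (fun z => by simp [tr3, gap_gap, Prod.map])
      fun z => by simp [tr3, gap_gap, Prod.map])
    simpa [e, tr3, Prod.map] using this
  have hd : HasDerivAt g (tr3 (mL i)) 0 := by
    have := ((hasDerivAt_const (0 : ℝ) (1 : V × V × V →L[ℝ] V × V × V)).add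
      ((hasDerivAt_id (0 : ℝ)).smul_const (tr3 (mL i)))).add
      ((hasDerivAt_pow 2 (0 : ℝ)).smul_const (tr3 (((1 / 2 : ℝ) • beL).smulRight va)))
    exact this.congr_deriv (by simp)
  have := der0 (t0L c) (a := fun _ => 0) (a' := 0) hd (hasDerivAt_const _ _) (by simp [hg']) rfl
    hF h1 fun t => t0_inv c (a := 0) (hg.lga (t • e2 i)).1
      (fun m => by rw [← be_bas, ← be_gap (z := bas m 1) (u := t • e2 i), ← (hg.lga _).2, sim_bas])
      fun x y z => by
      rw [Api4.sch_apply (h1 t), Api4.sch_apply hF, e]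
      simp only [(hg.lga _).2]
  simp only [add_zero] at this
  exact this

/-! ## the bilinear form `X` -/

/-- the three point function with the middle leg smeared with `h` -/
def X (Ψ : V × V → ℂ) (h : V → ℂ) : ℂ :=
  c.t0 (sch fun z : V × V × V => Ψ (z.1, z.2.2) * h z.2.1)

variable {c} {Ψ Ψ' : V × V → ℂ} {h h' : V → ℂ}

theorem X_add_l (a : Dc Ψ) (a' : Dc Ψ') (b : Dc h) :
    X c (fun z => Ψ z + Ψ' z) h = X c Ψ h + X c Ψ' h := by
  simp only [X, add_mul]
  rw [Api4.sch_add (Far.dc_tri a b) (Far.dc_tri a' b), Far.t0_add]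

theorem X_add_r (a : Dc Ψ) (b : Dc h) (b' : Dc h') :
    X c Ψ (fun z => h z + h' z) = X c Ψ h + X c Ψ h' := by
  simp only [X, mul_add]
  rw [Api4.sch_add (Far.dc_tri a b) (Far.dc_tri a b'), Far.t0_add]

theorem X_mul_l (a : Dc Ψ) (b : Dc h) (s : ℂ) : X c (fun z => s * Ψ z) h = s * X c Ψ h := by
  simp only [X, mul_assoc]
  rw [Api4.sch_const_mul s (Far.dc_tri a b)]
  exact (t0L c).map_smul s _

theorem X_mul_r (a : Dc Ψ) (b : Dc h) (s : ℂ) : X c Ψ (fun z => s * h z) = s * X c Ψ h := by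
  rw [← X_mul_l a b]
  simp only [X, mul_left_comm s, mul_assoc]

theorem X_tra [Fact c.tp] (a : Dc Ψ) (b : Dc h) (y : V) :
    X c (fun z => fderiv ℝ Ψ z (y, y)) h + X c Ψ (fun z => fderiv ℝ h z y) = 0 := by
  have := t0_tra c (Far.dc_tri a b) y
  simp only [fd_tri a b] at this
  rwa [Api4.sch_add (Far.dc_tri (Api4.dc_fderiv a contDiff_const) b)
    (Far.dc_tri a (Api4.dc_fderiv b contDiff_const)), Far.t0_add] at this

theorem X_rot [Fact c.tp] (hg : GRP c) (a : Dc Ψ) (b : Dc h) (i : Fin 2) :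
    X c (fun z => fderiv ℝ Ψ z (mL i z.1, mL i z.2)) h +
      X c Ψ (fun z => fderiv ℝ h z (mL i z)) = 0 := by
  have := t0_rot hg (Far.dc_tri a b) i
  simp only [fd_tri a b] at this
  rwa [Api4.sch_add (Far.dc_tri (Api4.dc_fderiv a (X := fun z => (mL i z.1, mL i z.2))
    ((mL i).prodMap (mL i)).contDiff) b)
    (Far.dc_tri a (Api4.dc_fderiv b (mL i).contDiff)), Far.t0_add] at this

end

end Vale.Agent.P352X.ZZ.IXH
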