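import Vale.Agent.P352X.R.IX.B
import Vale.Agent.P352Z.R.IX.A

/-!
# P352Z (port of P352X), row IX, part B: quantitative bounds for the far part of the plane (helper89)
-/

set_option linter.all false

open MeasureTheory Filter Topology
open scoped SchwartzMap ComplexConjugate ENNReal ContDiff LineDeriv

namespace Vale.Agent.P352X.ZZ.IXH

open Vale.Agent.P352 Vale.Agent.P352.GF Vale.Agent.P352.BW Vale.Agent.P352.H246
open Vale.Agent.P352.H496 Vale.Agent.P352.H755 Vale.Agent.P352.H15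
open UniformSpace (Completion)
open Vale.Agent.P352X.IXH
open Complex (I)
open Ld

noncomputable section

variable {D : Type*} [NormedAddCommGroup D] [InnerProductSpace ℂ D] {c : Ctx D}

theorem X_bd (c : Ctx D) : ∃ (m : ℕ) (C : ℝ), 0 ≤ C ∧ ∀ Ψ h, Dc Ψ → Dc h →
    ‖X c Ψ h‖ ≤ C * sn m (sch Ψ) * sn m (sch h) := by
  obtain ⟨m, C, hC, h⟩ := SB.clm (t0L c)
  let e : (V × V × V) ≃L[ℝ] (V × V) × V := Far.sw2.trans (ContinuousLinearEquiv.prodAssoc ℝ V V V).symm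
  obtain ⟨C', hC', h'⟩ := Api4.sn_tenE e m
  refine ⟨m, C * C', by positivity, fun Ψ f hΨ hf => ?_⟩
  have := (h _).trans (mul_le_mul_of_nonneg_left (h' (sch Ψ) (sch f)) hC)
  rw [← Api4.sch_tenE e hΨ hf, ← mul_assoc, ← mul_assoc] at this
  exact this

/-! ## the spectral measure at small `p_b` -/

theorem nu_bd (ht : TWO c) : ∃ (m : ℕ) (C : ℝ), 0 ≤ C ∧ ∀ (f : Sch) (s : ℝ), 0 < s →
    c.nu (c.Tv (hk va va (ev f))) {p | al p < s} ≤ ENNReal.ofReal ((C * sn m f) ^ 2 * s) := by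
  obtain ⟨C0, hC0, ht⟩ := ht
  have hw := Api4.integrable_w (volume : Measure P3)
  obtain ⟨m, C, hC, h⟩ := dens_bd (volume : Measure P3).integrablePower
  set w : P3 → ℝ := fun y => ((1 + ‖y‖) ^ (volume : Measure P3).integrablePower)⁻¹ with hw'
  have hw0 : 0 ≤ ∫ y, w y := integral_nonneg fun y => by positivity
  refine ⟨m, Real.sqrt (C0 * ∫ y, w y) * C, by positivity, fun f s hs => ?_⟩
  have hS : MeasurableSet {p : V | al p < s} := measurableSet_lt meas_al measurable_const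
  set K := C0 * (C * sn m f) ^ 2 with hK
  have hK0 : 0 ≤ K := by positivity
  have hi : Integrable ((Set.Ioo 0 s).indicator fun _ : ℝ => (1 : ℝ)) :=
    (integrable_indicator_iff measurableSet_Ioo).2 (integrableOn_const (by simp))
  refine (ht va va _ ⟨f, rfl⟩ _).trans ?_
  rw [withDensity_apply _ hS, Measure.restrict_restrict hS, ← lintegral_indicator (hS.inter meas_Fc)]
  refine (lintegral_mono (g := fun p => ENNReal.ofReal (K * w (pm p) *
    (Set.Ioo 0 s).indicator (fun _ : ℝ => (1 : ℝ)) (al p))) fun p => ?_).trans (le_of_eq ?_)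
  · by_cases hp : p ∈ {p : V | al p < s} ∩ Fc
    · beta_reduce
      rw [Set.indicator_of_mem hp, Set.indicator_of_mem (show al p ∈ Set.Ioo 0 s from
        ⟨((mem_Fc' _).1 hp.2).1, hp.1⟩), mul_one]
      refine ENNReal.ofReal_le_ofReal ?_
      have := mul_le_mul_of_nonneg_left (h f p) hC0
      simpa only [hK, mul_assoc] using this
    · rw [Set.indicator_of_notMem hp]
      exact zero_le
  · rw [← ofReal_integral_eq_lintegral_ofReal (integrable_pm_al (hw.const_mul K) hi)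
      (Eventually.of_forall fun p => mul_nonneg (by positivity)
        (Set.indicator_nonneg (fun _ _ => zero_le_one) _)),
      integral_pm_al (fun y => K * w y), integral_const_mul, integral_indicator measurableSet_Ioo]
    congr 1
    have := Real.sq_sqrt (mul_nonneg hC0 hw0)
    simp only [integral_const, smul_eq_mul, mul_one, MeasurableSet.univ, measureReal_restrict_apply,
      Set.univ_inter, Real.volume_real_Ioo, sub_zero, max_eq_left hs.le, hK, mul_pow, this]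
    ring

/-! ## the two leg vectors -/

theorem om_om (c : Ctx D) : inner ℂ c.Om c.Om = 1 := by
  rw [inner_self_eq_norm_sq_to_K, Ctx.Om, om, Completion.norm_coe, c.Q.norm_vac]
  simp

theorem om_U (hg : GRP c) (s : ℝ) (L : Ix → V) (a : V) (v : Completion D) :
    inner ℂ c.Om (Ug c.Q s L a v) = inner ℂ c.Om v := by
  rw [← inner_unitary (hg.uni s L a) c.Om v, hg.vac]

/-- the projection onto the orthogonal complement of the vacuum -/
def pO (c : Ctx D) : Completion D →L[ℂ] Completion D := 1 - (innerSL ℂ c.Om).smulRight c.Om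

theorem pO_apply (v : Completion D) : pO c v = v - inner ℂ c.Om v • c.Om := rfl

theorem pO_om : pO c c.Om = 0 := by rw [pO_apply, om_om, one_smul, sub_self]

theorem pO_U (hg : GRP c) (s : ℝ) (L : Ix → V) (a : V) (v : Completion D) :
    pO c (Ug c.Q s L a v) = Ug c.Q s L a (pO c v) := by
  rw [pO_apply, pO_apply, om_U hg, map_sub, map_smul, hg.vac]

/-- Lipschitz bounds for the null rotations that fix `b` -/
def LG (c : Ctx D) (A : S2 →L[ℂ] Completion D) : Prop := ∃ (m : ℕ) (C : ℝ), 0 ≤ C ∧ ∀ G s,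
  ‖Gb c.Q s (A G) - A G‖ ≤ C * sn m G * |s|

theorem LG.add {A B : S2 →L[ℂ] Completion D} (h : LG c A) (h' : LG c B) : LG c (A + B) := by
  obtain ⟨m, C, hC, h⟩ := h
  obtain ⟨m', C', hC', h'⟩ := h'
  refine ⟨max m m', C + C', by positivity, fun G s => ?_⟩
  rw [ContinuousLinearMap.add_apply, map_add, add_sub_add_comm, add_mul, add_mul]
  exact (norm_add_le _ _).trans (add_le_add
    ((h G s).trans (mul_le_mul_of_nonneg_right (sn_up hC (le_max_left _ _) G) (abs_nonneg s)))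
    ((h' G s).trans (mul_le_mul_of_nonneg_right (sn_up hC' (le_max_right _ _) G) (abs_nonneg s))))

theorem LG.sum {ι : Type*} (t : Finset ι) {A : ι → S2 →L[ℂ] Completion D} (h : ∀ i, LG c (A i)) :
    LG c (∑ i ∈ t, A i) :=
  Finset.sum_induction _ _ (fun _ _ => LG.add) ⟨0, 0, le_rfl, fun G s => by simp⟩ fun i _ => h i

theorem LG.comp {A : S2 →L[ℂ] Completion D} (h : LG c A) (P : S2 →L[ℂ] S2) : LG c (A ∘L P) := by
  obtain ⟨m, C, hC, h⟩ := h
  obtain ⟨m', C', hC', h'⟩ := (SB.sn m hC).comp (P.restrictScalars ℝ)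
  exact ⟨m', C', hC', fun G s => (h (P G) s).trans
    (mul_le_mul_of_nonneg_right (h' G) (abs_nonneg s))⟩

/-- the matrix of the null rotation on pairs of pairs of indices -/
def Lb (s : ℝ) (P : (I2 × I2) × I2 × I2) : ℂ :=
  L2 (H746.nrt vb (tv ((s / 2) • e2 0))) P.1.1 P.2.1 *
    L2 (H746.nrt vb (tv ((s / 2) • e2 0))) P.1.2 P.2.2

theorem smooth_Lb : ContDiff ℝ 1 Lb := by
  have h : ∀ m n, ContDiff ℝ 1 fun s : ℝ => H746.nrt vb (tv ((s / 2) • e2 0)) m n := fun m n => by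
    have e : ∀ s : ℝ, tv ((s / 2) • e2 0) = (s / 2) • ex 0 := fun s =>
      null_ext (by simp) (by simp) (by simp)
    simp only [e, H746.nrt, GF.mdot, Pi.add_apply, Pi.sub_apply, Pi.smul_apply, smul_eq_mul]
    fun_prop
  have h2 : ∀ K I, ContDiff ℝ 1 fun s : ℝ => L2 (H746.nrt vb (tv ((s / 2) • e2 0))) K I :=
    fun K I => Complex.ofRealCLM.contDiff.comp ((h _ _).mul (h _ _))
  exact contDiff_pi.2 fun P => (h2 _ _).mul (h2 _ _)

theorem L2_one (K I : I2) : L2 GF.one K I = if K = I then 1 else 0 := by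
  obtain ⟨a, b⟩ := K
  obtain ⟨a', b'⟩ := I
  by_cases h1 : a = a' <;> by_cases h2 : b = b' <;>
    simp [L2, GF.one, bas, h1, h2, eq_comm (a := a'), eq_comm (a := b')]

theorem Lb_zero (P Q : I2 × I2) : Lb 0 (P, Q) = if P = Q then 1 else 0 := by
  have e : H746.nrt vb (tv (((0 : ℝ) / 2) • e2 0)) = GF.one := by
    have : tv (((0 : ℝ) / 2) • e2 0) = 0 := null_ext (by simp) (by simp) (by simp)
    funext m
    simp [this, H746.nrt, GF.mdot, GF.one]
  rw [Lb, e, L2_one, L2_one, ite_zero_mul_ite_zero, mul_one]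
  simp only [Prod.ext_iff (x := P)]

theorem wC_lip (hg : GRP c) {e : Bool} {w : I2 → I2 → S2 →L[ℂ] Completion D}
    (hw : TP2 c.Q c.T e w) (P : I2 × I2) : LG c (pO c ∘L w P.1 P.2) := by
  obtain ⟨m, C, hC, h⟩ := SB.clm
    (ContinuousLinearMap.pi fun Q : I2 × I2 => pO c ∘L w Q.1 Q.2)
  replace h : ∀ (Q : I2 × I2) G, ‖pO c (w Q.1 Q.2 G)‖ ≤ C * sn m G := fun Q G =>
    (norm_le_pi_norm (fun Q : I2 × I2 => pO c (w Q.1 Q.2 G)) Q).trans (h G)
  obtain ⟨K, hK, hK'⟩ := gb_near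
  obtain ⟨K1, hK1, hK1'⟩ := lip1 smooth_Lb
  set M : ℝ := (m * 2 ^ m + 1) * 4 ^ (m + 1) with hM
  have hM0 : 0 ≤ M := by positivity
  set N : ℝ := ((Finset.univ : Finset (I2 × I2)).card : ℝ)
  have hN : 0 ≤ N := Nat.cast_nonneg _
  refine ⟨m + 1, C * M * K + N * K1 * C + 4 * K * C, by positivity, fun G s => ?_⟩
  have hG := Lie.sn_nonneg (m + 1) G
  have h0 := fun Q => (h Q G).trans (sn_up hC (Nat.le_succ m) G)
  have hU : ∀ v, ‖Gb c.Q s v‖ = ‖v‖ := ContinuousLinearMap.norm_map_of_mem_unitary (hg.uni _ _ _)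
  have hs0 := abs_nonneg s
  change ‖Gb c.Q s (pO c (w P.1 P.2 G)) - pO c (w P.1 P.2 G)‖ ≤ _
  rcases le_total (K * |s|) (1 / 2) with hs | hs
  · let g : (V × V) ≃L[ℝ] V × V := .equivOfInverse ((gbpL (-s)).prodMap (gbpL (-s)))
      ((gbpL s).prodMap (gbpL s)) (fun z => by simp [gbp_gbp, Prod.map])
      fun z => by simp [gbp_gbp, Prod.map]
    let F : S2 := SchwartzMap.compCLMOfContinuousLinearEquiv ℂ g G
    have hs1 : |s| ≤ 1 := by nlinarith
    obtain ⟨κ, h1⟩ := hw.cov 1 _ 0 P.1 P.2 F G one_pos (hg.lgb s).1 fun x y => by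
      simp only [(hg.lgb s).2]
      exact congrArg G (by simp [g, gbp_gbp])
    have h3 : pO c (w P.1 P.2 F) = ∑ Q : I2 × I2, Lb s (Q, P) • Gb c.Q s (pO c (w Q.1 Q.2 G)) := by
      simp only [h1, map_add, map_sum, map_smul, pO_om, smul_zero, add_zero,
        ← Ug_apply c.Q one_pos (hg.lgb s).1, pO_U hg, Fintype.sum_prod_type (α₁ := I2)]
      rfl
    have h4 : Gb c.Q s (pO c (w P.1 P.2 G)) - pO c (w P.1 P.2 G) = pO c (w P.1 P.2 (F - G)) -
        ∑ Q : I2 × I2, (Lb s - Lb 0) (Q, P) • Gb c.Q s (pO c (w Q.1 Q.2 G)) := by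
      simp only [map_sub, h3, Pi.sub_apply, sub_smul, Finset.sum_sub_distrib, Lb_zero, ite_smul,
        one_smul, zero_smul, Finset.sum_ite_eq', Finset.mem_univ, if_true]
      abel
    have h2 := Lie.lip (m := m) (F := G) (G := F) (a := 0) hs
      ((hK' (-s) (by rwa [abs_neg])).trans_eq (by rw [abs_neg]))
      (by rw [norm_zero]; positivity) fun x => by rw [add_zero]; rfl
    rw [← hM] at h2
    have h5 : ‖∑ Q : I2 × I2, (Lb s - Lb 0) (Q, P) • Gb c.Q s (pO c (w Q.1 Q.2 G))‖ ≤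
        N * (K1 * |s| * (C * sn (m + 1) G)) := by
      refine (norm_sum_le _ _).trans ((Finset.sum_le_card_nsmul _ _ _ fun Q _ => ?_).trans_eq
        (nsmul_eq_mul _ _))
      rw [norm_smul, hU]
      exact mul_le_mul ((norm_le_pi_norm _ _).trans (hK1' s hs1)) (h0 Q) (norm_nonneg _)
        (by positivity)
    rw [h4]
    refine (norm_sub_le _ _).trans ((add_le_add ((h P _).trans
      (mul_le_mul_of_nonneg_left h2 hC)) h5).trans ?_)
    have : 0 ≤ 4 * K * C * sn (m + 1) G * |s| := by positivity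
    nlinarith
  · refine (norm_sub_le _ _).trans ?_
    have : 0 ≤ (C * M * K + N * K1 * C) * sn (m + 1) G * |s| := by positivity
    have := mul_le_mul_of_nonneg_left hs (mul_nonneg hC hG)
    nlinarith [hU (pO c (w P.1 P.2 G)), h0 P]

/-- the part of `w(ϑ, ϑ)` orthogonal to the vacuum -/
def wP (c : Ctx D) (w : I2 → I2 → S2 →L[ℂ] Completion D) : S2 →L[ℂ] Completion D :=
  ∑ P : I2 × I2, (pO c ∘L w P.1 P.2) ∘L ((a1 P.1 * a1 P.2) • (p21 P.1.2 ∘L p22 P.2.2))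

theorem wP_apply (w : I2 → I2 → S2 →L[ℂ] Completion D) (F : S2) :
    wP c w F = Far.wTT w F - inner ℂ c.Om (Far.wTT w F) • c.Om := by
  rw [← pO_apply]
  simp only [wP, Far.wTT, ContinuousLinearMap.sum_apply, ContinuousLinearMap.comp_apply,
    ContinuousLinearMap.smul_apply, map_smul, map_sum, Fintype.sum_prod_type, a1,
    Complex.ofReal_mul]

theorem wP_lip (hg : GRP c) {e : Bool} {w : I2 → I2 → S2 →L[ℂ] Completion D}
    (hw : TP2 c.Q c.T e w) : ∃ (m : ℕ) (C : ℝ), 0 ≤ C ∧ ∀ G s,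
      ‖Gb c.Q s (wP c w G) - wP c w G‖ ≤ C * sn m G * |s| := by
  have h : LG c (wP c w) := by
    unfold wP
    exact LG.sum _ fun P => (wC_lip hg hw P).comp _
  exact h

/-- **Tails.** -/
theorem tail2 [Fact c.can] (t : T3 c) : ∃ κ : ℝ, 0 < κ ∧ ∀ e w, TP2 c.Q c.T e w → ∃ (m : ℕ) (C : ℝ), 0 ≤ C ∧
    ∀ (f : Sch) (G : S2) (L : ℝ), 1 ≤ L →
      ‖inner ℂ (Usc c.Q L 1 (c.Tv (hk va va (ev f)))) (Far.wTT w G)‖ ≤
        C * L ^ (-κ) * sn m G * sn m f := by
  obtain ⟨C0, κ, hκ, h0⟩ := t.bas.tail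
  refine ⟨κ, hκ, fun e w hw => ?_⟩
  obtain ⟨m1, C1, hC1, h1⟩ := wP_lip t.grp hw
  obtain ⟨m2, C2, hC2, h2⟩ := nu_bd t.two
  obtain ⟨m3, C3, h3⟩ := t.gen.bd
  have b3 : SB fun f : Sch => ‖c.Tv (hk va va (ev f))‖ :=
    (SB.sn m3 (abs_nonneg (C3 * ‖va‖ * ‖va‖))).mono fun f => (h3 _ _ f).trans
      (mul_le_mul_of_nonneg_right (le_abs_self _) (Lie.sn_nonneg _ _))
  obtain ⟨m4, C4, hC4, h4⟩ := (SB.clm (wP c w)).add (SB.sn m1 hC1)
  obtain ⟨m5, C5, hC5, h5⟩ := ((SB.sn m2 hC2).add b3).add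
    (b3.comp (LineDeriv.lineDerivOpCLM ℝ Sch va))
  refine ⟨max m4 m5, |C0| * C4 * C5, by positivity, fun f G L hL => ?_⟩
  have hf : IsTest (ev f) := ⟨f, rfl⟩
  have hd := t.gen.ut va va va _ hf
  have e1 : dv va (ev f) = ev (LineDeriv.lineDerivOpCLM ℝ Sch va f) := by
    rw [dv_test hf]
    exact funext fun x => (SchwartzMap.lineDerivOp_apply_eq_fderiv _ _ _).symm
  have e2 : inner ℂ (Usc c.Q L 1 (c.Tv (hk va va (ev f)))) (Far.wTT w G) =
      inner ℂ (Usc c.Q L 1 (c.Tv (hk va va (ev f)))) (wP c w G) := by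
    rw [wP_apply, inner_sub_right, inner_smul_right, ← inner_conj_symm _ c.Om, Usc, om_U t.grp,
      Far.perp_Tv t.grp _ _ hf, map_zero, mul_zero, sub_zero]
  have hs := Lie.sn_nonneg m2 f
  have := h0 _ (wP c w G) _ _ L hL (mul_nonneg hC2 hs) hd.dm (h1 G) fun s hs => h2 f s hs.1
  rw [show gen (Pa c.Q) _ = _ from hd.gen_eq, norm_smul, Complex.norm_I, one_mul, e1] at this
  rw [e2]
  refine this.trans ?_
  have a1 := (h4 G).trans (sn_up hC4 (le_max_left m4 m5) G)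
  have a2 := (h5 f).trans (sn_up hC5 (le_max_right m4 m5) f)
  have a3 : 0 ≤ L ^ (-κ) := Real.rpow_nonneg (by linarith) _
  have a4 := Lie.sn_nonneg m1 G
  have a5 := Lie.sn_nonneg (max m4 m5) G
  calc _ ≤ |C0| * L ^ (-κ) * (C4 * sn (max m4 m5) G) * (C5 * sn (max m4 m5) f) := by
        gcongr
        exact le_abs_self _
    _ = _ := by ring

/-- **The far part of the plane.** -/
theorem far_bd [Fact c.tp] (t : T3 c) : ∃ κ : ℝ, 0 < κ ∧ ∃ m : ℕ, ∀ g r, Tst g → (0 : P3) ∉ tsupport g →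
    ∃ C A : ℝ, 0 ≤ C ∧ 1 ≤ A ∧ ∀ L Ψ R, A ≤ L → Dc Ψ → tsupport Ψ ⊆ Metric.closedBall 0 r →
      Tst R → tsupport R ⊆ Set.Icc (-1) 1 → ‖(L : ℂ) * X c Ψ (pr (kL g L) R)‖ ≤
        C * L ^ (-κ) * sn m (sch Ψ) * sn m (sch (cx R)) := by
  obtain ⟨κ, hκ, h⟩ := tail2 t
  obtain ⟨m1, C1, hC1, h1⟩ := h _ _ c.hTP.tp
  obtain ⟨m2, C2, hC2, h2⟩ := h _ _ c.hTP.tm
  set m := max m1 m2
  obtain ⟨C3, hC3, h3⟩ := sn_pr m
  refine ⟨κ, hκ, m, fun g r hg h0 => ?_⟩
  obtain ⟨gp, gm, A, a1, a2, -, -, -, -, a7⟩ := Far.far_fac t.grp hg h0 r 1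
  have b1 := Lie.sn_nonneg m (sch (cx gp))
  have b2 := Lie.sn_nonneg m (sch (cx gm))
  refine ⟨C1 * (C3 * sn m (sch (cx gp))) + C2 * 2 ^ m * (C3 * sn m (sch (cx gm))), max A 1,
    by positivity, le_max_right _ _, fun L Ψ R hL hΨ hr hR hs => ?_⟩
  have hL1 := (le_max_right _ _).trans hL
  have a3 : 0 ≤ L ^ (-κ) := Real.rpow_nonneg (by linarith) _
  have d1 := h1 (sch (pr gp R)) (sch Ψ) L hL1
  have d2 := h2 (sch (pr gm R)) (sch fun z => star (Ψ z)) L hL1
  rw [ev, Api4.coe_sch (Far.dc_pr a1 hR)] at d1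
  rw [ev, Api4.coe_sch (Far.dc_pr a2 hR), norm_inner_symm] at d2
  have b3 := Lie.sn_nonneg m (sch Ψ)
  have b4 := Lie.sn_nonneg m1 (sch (pr gp R))
  have b5 := Lie.sn_nonneg m2 (sch (pr gm R))
  have d3 : C1 * L ^ (-κ) * sn m1 (sch Ψ) * sn m1 (sch (pr gp R)) ≤
      C1 * L ^ (-κ) * sn m (sch Ψ) * (C3 * sn m (sch (cx gp)) * sn m (sch (cx R))) := by
    gcongr
    exacts [Lie.sn_mono (le_max_left _ _) _,
      (Lie.sn_mono (le_max_left _ _) _).trans (h3 _ _ a1 hR)]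
  have d4 : C2 * L ^ (-κ) * sn m2 (sch fun z => star (Ψ z)) * sn m2 (sch (pr gm R)) ≤
      C2 * L ^ (-κ) * (2 ^ m * sn m (sch Ψ)) * (C3 * sn m (sch (cx gm)) * sn m (sch (cx R))) := by
    gcongr
    exacts [(Lie.sn_mono (le_max_right _ _) _).trans (sn_star hΨ m),
      (Lie.sn_mono (le_max_right _ _) _).trans (h3 _ _ a2 hR)]
  rw [show (L : ℂ) * X c Ψ (pr (kL g L) R) = _ from
    a7 L ((le_max_left _ _).trans hL) R Ψ hR hs hΨ hr]
  refine (norm_add_le _ _).trans ((add_le_add (d1.trans d3) (d2.trans d4)).trans_eq ?_)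
  ring

end

end Vale.Agent.P352X.ZZ.IXH
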