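import Vale.Agent.P352X.R.IX.D
import Vale.Agent.P352Z.R.IX.B

/-!
# P352Z (port of P352X), row IX, parts C, D: uniform bounds, the Ward identity (helper89)
-/

set_option linter.all false

open MeasureTheory Filter Topology
open scoped SchwartzMap ComplexConjugate ENNReal ContDiff LineDeriv

namespace Vale.Agent.P352X.ZZ.IXH

open Vale.Agent.P352 Vale.Agent.P352.GF Vale.Agent.P352.BW Vale.Agent.P352.H246
open Vale.Agent.P352.H496 Vale.Agent.P352.H755 Vale.Agent.P352.H15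
open UniformSpace (Completion)
open Vale.Agent.P352X.IXH
open Complex (I)
open CK.Near (Nb ex_Nb)

noncomputable section

export Vale.Agent.P352X.IXH (NL Ps)

variable {D : Type*} [NormedAddCommGroup D] [InnerProductSpace ℂ D] {c : Ctx D}

theorem X_gS (j : ℕ) {g : P3 → ℝ} {R : ℝ → ℝ} {Ψ : V × V → ℂ} (h : Tst g) (hR : Tst R) (hΨ : Dc Ψ)
    {L : ℝ} (hL : 1 ≤ L) : ‖X c Ψ (pr (gS j g L) R)‖ ≤ ‖(L : ℂ) * X c Ψ (pr (kL g L) R)‖ := by
  rw [pr_gS, X_mul_r hΨ (Far.dc_pr (Ap.tst_kL h (by linarith)) hR), norm_mul, norm_mul,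
    Complex.norm_real, Complex.norm_real, Real.norm_of_nonneg (by positivity),
    Real.norm_of_nonneg (by linarith)]
  exact mul_le_mul_of_nonneg_right
    (div_le_self (by linarith) (one_le_pow₀ (Real.one_le_sqrt.2 hL))) (norm_nonneg _)

/-- far parts of the plane do not contribute -/
theorem X_far (hf : FAR c) (j : ℕ) {g : P3 → ℝ} {R : ℝ → ℝ} {Ψ : V × V → ℂ} (h : Tst g)
    (h0 : (0 : P3) ∉ tsupport g) (hR : Tst R) (hΨ : Dc Ψ) {η : ℝ} (hη : 0 < η) :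
    ∀ᶠ L in atTop, ‖X c Ψ (pr (gS j g L) R)‖ ≤ η := by
  have := (hf.far g R Ψ h h0 hR hΨ).norm
  rw [norm_zero] at this
  filter_upwards [this.eventually_le_const hη, eventually_ge_atTop (1 : ℝ)] with L h1 h2
  exact (X_gS j h hR hΨ h2).trans h1

/-- bounds in terms of `i` derivatives of the profile -/
def Bnd (c : Ctx D) (i m : ℕ) : Prop := ∀ j g r, KC j g → ∃ C A : ℝ, 0 ≤ C ∧ 1 ≤ A ∧
  ∀ L Ψ R M, A ≤ L → Dc Ψ → tsupport Ψ ⊆ Metric.closedBall 0 r → Tst R →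
    tsupport R ⊆ Set.Icc (-1) 1 → Nb i R M → ‖X c Ψ (pr (gS j g L) R)‖ ≤ C * sn m (sch Ψ) * M

theorem bnd0 [Fact c.tp] (t : T3 c) : ∃ m, Bnd c (m + 1) m := by
  obtain ⟨κ, hκ, m1, h1⟩ := far_bd t
  obtain ⟨m2, C2, hC2, h2⟩ := X_bd c
  set m := max m1 m2
  obtain ⟨C3, hC3, h3⟩ := sn_pr m
  refine ⟨m, fun j g r hg => ?_⟩
  have t1 : Tst fun y => g y - 2 ^ j / 4 * kL g (1 / 4) y :=
    Ap.cs_sub hg.tst (Ap.cs_cmul _ (Ap.tst_kL hg.tst (by norm_num)))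
  obtain ⟨C1, A, hC1, hA, h1⟩ := h1 _ r t1
    (notMem_tsupport_iff_eventuallyEq.2 (hg.hom.mono fun y hy => sub_eq_zero.2 hy))
  have hq : 0 < (4 : ℝ) ^ κ - 1 := sub_pos.2 (Real.one_lt_rpow (by norm_num) hκ)
  set B := 4 * A * ((4 * A) ^ m * (4 * A) ^ m * 2 ^ m * sn m (sch (cx g))) with hB
  have hB0 : 0 ≤ B := by have := Lie.sn_nonneg m (sch (cx g)); positivity
  refine ⟨(C2 * C3 * B + C1 * ((4 : ℝ) ^ κ - 1)⁻¹) * 2 ^ m, A, by positivity, hA,
    fun L Ψ R M hL hΨ hr hR hs hN => ?_⟩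
  have s1 := Lie.sn_nonneg m (sch Ψ)
  have s2 := Lie.sn_nonneg m (sch (cx R))
  have := tele (u := fun L => ‖X c Ψ (pr (gS j g L) R)‖)
    (a := C2 * sn m (sch Ψ) * (C3 * B * sn m (sch (cx R))))
    (b := C1 * sn m (sch Ψ) * sn m (sch (cx R))) hκ hA (by positivity) (fun L a1 a2 => ?_)
    (fun L a1 => ?_) hL
  · refine this.trans (le_trans (le_of_eq (b := (C2 * C3 * B + C1 * ((4 : ℝ) ^ κ - 1)⁻¹) *
      sn m (sch Ψ) * sn m (sch (cx R))) (by ring)) ?_)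
    exact (mul_le_mul_of_nonneg_left (sn_Nb hR hs hN) (by positivity)).trans_eq (by ring)
  · have t2 := tst_gS j hg.tst (by linarith : 0 < L)
    refine (h2 _ _ hΨ (Far.dc_pr t2 hR)).trans (mul_le_mul (sn_up hC2 (le_max_right _ _) _)
      ((Lie.sn_mono (le_max_right _ _) _).trans ((h3 _ _ t2 hR).trans ?_)) (Lie.sn_nonneg _ _)
      (by positivity))
    exact mul_le_mul_of_nonneg_right (mul_le_mul_of_nonneg_left
      (sn_gS m j hg.tst (by linarith) a2) hC3) s2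
  · beta_reduce
    rw [gS_split j g (by linarith) R, X_add_r hΨ (Far.dc_pr (tst_gS j hg.tst (by linarith)) hR)
      (Far.dc_pr (tst_gS j t1 (by linarith)) hR)]
    refine (norm_add_le _ _).trans (add_le_add le_rfl ((X_gS j t1 hR hΨ (by linarith)).trans
      ((h1 L Ψ R (by linarith) hΨ hr hR hs).trans ?_)))
    have a3 : 0 ≤ L ^ (-κ) := Real.rpow_nonneg (by linarith) _
    have s3 := Lie.sn_nonneg m1 (sch (cx R))
    calc _ ≤ C1 * L ^ (-κ) * sn m (sch Ψ) * sn m (sch (cx R)) := by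
          gcongr <;> exact Lie.sn_mono (le_max_left _ _) _
      _ = _ := by ring

theorem bnd_step [Fact c.tp] {i m : ℕ} (h : Bnd c (i + 1) m) : ∃ m', Bnd c i m' := by
  obtain ⟨χ, Cp, tχ, sχ, hCp, prim⟩ := CK.prim_row
  have sχ' : tsupport χ ⊆ Set.Icc (-1) 1 := sχ.trans (Set.Icc_subset_Icc_left (by norm_num))
  obtain ⟨Mχ, hχ⟩ := ex_Nb tχ (i + 1)
  have hMχ := hχ.nonneg
  obtain ⟨m1, C1, hC1, h1⟩ := (SB.sn m zero_le_one).comp
    (LineDeriv.lineDerivOpCLM ℝ S2 ((vb, vb) : V × V))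
  refine ⟨max m m1, fun j g r hg => ?_⟩
  obtain ⟨C, A, hC, hA, h⟩ := h j g r hg
  refine ⟨C * C1 * (1 + Mχ + 2 * Cp) + C * Mχ, A, by positivity, hA,
    fun L Ψ ρ M hL hΨ hr hρ hs hN => ?_⟩
  obtain ⟨R, tR, sR, e, hR⟩ := prim ρ hρ hs
  have t2 := tst_gS j hg.tst (by linarith : 0 < L)
  have d1 := Far.dc_pr t2 tR
  have d2 := Far.dc_pr t2 tχ
  have e1 : pr (gS j g L) ρ = fun z => fderiv ℝ (pr (gS j g L) R) z vb +
      ((∫ t, ρ t : ℝ) : ℂ) * pr (gS j g L) χ z := funext fun z => by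
    rw [fd_pr t2 tR, pr, pr, e (be z), Ap.pl_vb, be_vb, map_zero]
    push_cast
    ring
  have a1 := h L _ R _ hL (Api4.dc_fderiv hΨ (X := fun _ => (vb, vb)) contDiff_const)
    ((Api4.tsupport_fderiv_subset _ _).trans hr) tR sR (hN.prim hχ hρ tχ tR sR hCp e hR)
  have a2 := h L Ψ χ _ hL hΨ hr tχ sχ' hχ
  have a3 := h1 (sch Ψ)
  beta_reduce at a3
  rw [one_mul, LineDeriv.lineDerivOpCLM_apply, ← Api4.sch_fderiv hΨ] at a3
  have hc : ‖∫ t, ρ t‖ ≤ M := (norm_integral_le_integral_norm _).trans hN.2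
  have hM := hN.nonneg
  rw [e1, X_add_r hΨ (Api4.dc_fderiv d1 contDiff_const) (Api4.dc_const_mul _ d2), X_mul_r hΨ d2,
    eq_neg_of_add_eq_zero_right (X_tra hΨ d1 vb)]
  refine (norm_add_le _ _).trans ?_
  rw [norm_neg, norm_mul, Complex.norm_real]
  refine (add_le_add (a1.trans (mul_le_mul_of_nonneg_right (mul_le_mul_of_nonneg_left
    (a3.trans (sn_up hC1 (le_max_right m m1) _)) hC) (by positivity)))
    (mul_le_mul hc (a2.trans (mul_le_mul_of_nonneg_right (sn_up hC (le_max_left m m1) _) hMχ))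
      (norm_nonneg _) hM)).trans_eq ?_
  ring

theorem bnd [Fact c.tp] (t : T3 c) : ∃ m, Bnd c 0 m := by
  obtain ⟨m, h⟩ := bnd0 t
  have : ∀ i, (∃ m, Bnd c i m) → ∃ m, Bnd c 0 m := fun i => by
    induction i with
    | zero => exact id
    | succ i ih => exact fun ⟨_, h⟩ => ih (bnd_step h)
  exact this _ ⟨m, h⟩

/-- **The Ward identity of the null rotations.** -/
theorem ward [Fact c.tp] (hc : GRP c) {G : E5 → ℂ} {K R : ℝ → ℝ} {g : P3 → ℝ} {ε : ℝ} (hG : Dc G) (hK : Tst K)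
    (hg : Tst g) (hR : Tst R) (h : ε ∈ Set.Ioc (0 : ℝ) 1) (i : Fin 2) :
    X c (Ps (mu5 (fun u => u.1.2 i - u.1.1.2 i) G) (deriv K) ε) (pr g R) =
      X c (Ps (mu5 (fun u => u.1.1.2 i) G) K ε) (pr (da g) R) -
      X c (Ps G K ε) (pr (xi i (da g)) R) - X c (Ps G K ε) (pr (di i g) fun t => t * R t) -
      ε * X c (Ps (fun u => fderiv ℝ G u (NL i u)) K ε) (pr g R) := by
  have d0 := Far.dc_pr hg hR
  have d1 := dc_Ps (dc_mu5 (φ := fun u => u.1.1.2 i) (by fun_prop) hG) hK h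
  have d2 := dc_Ps (Api4.dc_fderiv hG (smooth_NL i)) hK h
  have d3 := dc_Ps (dc_mu5 (φ := fun u => u.1.2 i - u.1.1.2 i) (by fun_prop) hG)
    (Ap.cs_deriv hK) h
  have a1 := X_rot hc (dc_Ps hG hK h) d0 i
  have a2 := X_tra (c := c) d1 d0 va
  simp only [rot_Ps hG hK h.1.ne', rot_pr hg hR] at a1
  simp only [tra_pr hg hR] at a2
  rw [X_add_l (Api4.dc_fderiv d1 contDiff_const) (Api4.dc_add (Api4.dc_const_mul _ d2) d3) d0,
    X_add_l (Api4.dc_const_mul _ d2) d3 d0, X_mul_l d2 d0,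
    X_add_r (dc_Ps hG hK h) (Far.dc_pr (tst_xi i (tst_da hg)) hR)
      (Far.dc_pr (tst_di i hg) (Ap.cs_mul_l contDiff_fun_id hR))] at a1
  linear_combination a1 - a2

end

end Vale.Agent.P352X.ZZ.IXH
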